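import Mathlib
import Vale.Agent.P198.Q.Defs

/-!
# P198, Stage 2: interfaces between the blocks

`LChart` (output of the square-tiling block CH, input of EN and GC),
`HasStructure` (output of the energy block EN, input of the zoom block GC).
-/

open Metric Set TopologicalSpace MeasureTheory
open scoped ContDiff

namespace P198S2

/-- `g` is the weak gradient of `u` on the whole plane (global `L^2`). Same as `WG` of block C5. -/
def WGrad (u : ℂ → ℝ) (g : ℂ → ℂ) : Prop :=
  MemLp g 2 volume ∧ ∀ φ : ℂ → ℝ, ContDiff ℝ ∞ φ → HasCompactSupport φ →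
    ∀ v : ℂ, ∫ x, u x * fderiv ℝ φ x v = - ∫ x, (inner ℝ (g x) v) * φ x

/-- gradient of a smooth function as a complex number. -/
noncomputable def grad (φ : ℂ → ℝ) (x : ℂ) : ℂ := ⟨fderiv ℝ φ x 1, fderiv ℝ φ x Complex.I⟩

/-- quadratic form with coefficients `a,b,c`. -/
def qf (a b c : ℝ) (v : ℂ) : ℝ := a * v.re ^ 2 + 2 * b * (v.re * v.im) + c * v.im ^ 2

variable {G Z : Type*} [Group G] [MetricSpace Z] [MulAction G Z]

/-- A local chart of `Z`, quasisymmetric in the following sense: for every radius ratio `T` there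
is `H` (independent of the point) such that near every point `z` of the source
`dist y z' ≤ T dist y z''` implies `|e y - e z'| ≤ H |e y - e z''|`. -/
structure LChart (e : OpenPartialHomeomorph Z ℂ) : Prop where
  nonempty : e.source.Nonempty
  qs : ∀ T : ℝ, ∃ H : ℝ, ∀ z ∈ e.source, ∃ r : ℝ, 0 < r ∧ ball z r ⊆ e.source ∧
    ∀ y ∈ ball z r, ∀ z' ∈ ball z r, ∀ z'' ∈ ball z r, dist y z' ≤ T * dist y z'' →
      ‖e y - e z'‖ ≤ H * ‖e y - e z''‖

/-- `g` as a homeomorphism (continuity of each element is passed as a hypothesis). -/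
def homeoOf (hc : ∀ g : G, Continuous (fun x : Z => g • x)) (g : G) : Z ≃ₜ Z where
  toFun x := g • x
  invFun x := g⁻¹ • x
  left_inv x := by simp
  right_inv x := by simp
  continuous_toFun := hc g
  continuous_invFun := hc g⁻¹

/-- the transition map `e ∘ g ∘ e⁻¹`. -/
noncomputable def trans (hc : ∀ g : G, Continuous (fun x : Z => g • x))
    (e : OpenPartialHomeomorph Z ℂ) (g : G) : OpenPartialHomeomorph ℂ ℂ :=
  e.symm.trans ((homeoOf hc g).toOpenPartialHomeomorph.trans e)

/-- Output of the energy block: an invariant measurable elliptic structure in the chart `e`. -/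
structure InvStructure (hc : ∀ g : G, Continuous (fun x : Z => g • x))
    (e : OpenPartialHomeomorph Z ℂ) (a b c : ℂ → ℝ) (lam : ℝ) : Prop where
  ma : Measurable a
  mb : Measurable b
  mc : Measurable c
  lam_pos : 0 < lam
  lower : ∀ x v, lam * ‖v‖ ^ 2 ≤ qf (a x) (b x) (c x) v
  upper : ∀ x v, qf (a x) (b x) (c x) v ≤ lam⁻¹ * ‖v‖ ^ 2
  inv : ∀ (g : G) (ψ : ℂ → ℝ), ContDiff ℝ ∞ ψ → HasCompactSupport ψ →
    tsupport ψ ⊆ (trans hc e g).target →
    ∃ w : ℂ → ℂ, WGrad ((trans hc e g).source.indicator (fun x => ψ (trans hc e g x))) w ∧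
      ∫ x, qf (a x) (b x) (c x) (w x) ≤ ∫ x, qf (a x) (b x) (c x) (grad ψ x)

/-- Statement of the energy block EN. -/
def EN_Statement : Prop :=
  ∀ (G Z : Type) [Group G] [MetricSpace Z] [MulAction G Z] [CompactSpace Z] [Countable G]
    (_ : P198Q.QM G Z) (hc : ∀ g : G, Continuous (fun x : Z => g • x))
    (e : OpenPartialHomeomorph Z ℂ), LChart e →
    ∃ a b c lam, InvStructure hc e a b c lam

end P198S2

namespace P198S2


variable {G Z : Type*} [Group G] [MetricSpace Z] [MulAction G Z]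

/-- the embedding `ℂ → OnePoint ℂ` as a partial homeomorphism. -/
noncomputable def coeP : OpenPartialHomeomorph ℂ (OnePoint ℂ) :=
  (OnePoint.isOpenEmbedding_coe (X := ℂ)).toOpenPartialHomeomorph _

/-- the finite part of a homeomorphism of the Riemann sphere. -/
noncomputable def finPart (Φ : OnePoint ℂ ≃ₜ OnePoint ℂ) : OpenPartialHomeomorph ℂ ℂ :=
  coeP.trans (Φ.toOpenPartialHomeomorph.trans coeP.symm)

/-- Output of the zoom block: a global chart in which every element of `G` decreases the Dirichlet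
energy of test functions (hence, applied to `g⁻¹`, preserves it). -/
def IsConfChart (hc : ∀ g : G, Continuous (fun x : Z => g • x)) (F : Z ≃ₜ OnePoint ℂ) : Prop :=
  ∀ (g : G) (φ : ℂ → ℝ), ContDiff ℝ ∞ φ → HasCompactSupport φ →
    tsupport φ ⊆ (finPart (F.symm.trans ((homeoOf hc g).trans F))).target →
    ∃ w : ℂ → ℂ,
      WGrad ((finPart (F.symm.trans ((homeoOf hc g).trans F))).source.indicator
        (fun x => φ (finPart (F.symm.trans ((homeoOf hc g).trans F)) x))) w ∧
      ∫ x, ‖w x‖ ^ 2 ≤ ∫ x, ‖grad φ x‖ ^ 2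

/-- Statement of the zoom block GC (with the Lebesgue point argument included). -/
def GC_Statement : Prop :=
  ∀ (G Z : Type) [Group G] [MetricSpace Z] [MulAction G Z] [CompactSpace Z] [ConnectedSpace Z]
    (_ : P198Q.QM G Z) (_ : P198Q.Planar Z) (hc : ∀ g : G, Continuous (fun x : Z => g • x))
    (e : OpenPartialHomeomorph Z ℂ) (_ : LChart e) (a b c : ℂ → ℝ) (lam : ℝ)
    (_ : InvStructure hc e a b c lam),
    ∃ F : Z ≃ₜ OnePoint ℂ, IsConfChart hc F

/-- Statement of the chart block CH (square tilings, weak quasisymmetry). -/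
def CH_Statement : Prop :=
  ∀ (G Z : Type) [Group G] [MetricSpace Z] [MulAction G Z] [CompactSpace Z] [ConnectedSpace Z]
    (_ : P198Q.QM G Z) (_ : P198Q.Planar Z) (_ : Nonempty (Z ≃ₜ sphere (0 : EuclideanSpace ℝ (Fin 3)) 1))
    (N : ℕ → Finset Z) (_ : P198Q.IsNet N)
    (_ : ∀ t : ℝ, 0 < t → ∃ C : ℝ, ∀ k, P198Q.md (N k) (P198Q.hit k) (P198Q.contDiam Z t) ≤ C),
    ∃ e : OpenPartialHomeomorph Z ℂ, LChart e

end P198S2
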